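import Vale.Agent.Results.P270.ToricBundle
import Vale.Agent.P223.H959.Hsc
import Vale.Agent.P223.H959.All
import Vale.Agent.P223.H959.L2
import Vale.Agent.P223.H209.Leb

/-!
# P270: generalised abundance for three classes of varieties

1. Compact Kähler manifolds with nonzero simplicial volume (a homotopy invariant): if `α` is a nef
   class (for instance the class of `M`, or of `B + M`) and `K_X + α` is nef then `K_X + α` is nef
   and big. More precisely the simplicial volume of `X` is at most a constant (depending on the
   dimension) times `(K_X + α)^n`.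
2. Compact Kähler manifolds with a Hermitian metric (not assumed Kähler) of nonpositive holomorphic
   sectional curvature: in each of five cases `K_X + α` is positive (so ample) for every nef class
   `α`.
3. All klt pairs on toric bundles over abelian varieties.
-/

open scoped Manifold ContDiff ComplexOrder

namespace Vale.Agent.Results.P270.GeneralisedAbundance

open Vale.Agent.P270 Vale.Agent.P270.ToricBundle Vale.Agent.P272.K
open Vale.Agent.P223.K (sv)
open Vale.Agent.P223.H959 (realAtlas IsClosed11 NefForm NefAdjoint)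

/-- 1. Let `X` be a compact connected complex manifold of dimension `n ≥ 2` with a Kähler metric
`w`, `b` a closed real `(1,1)`-form whose class is nef, and suppose that `K_X + [b]` is nef. Then for
every smooth Hermitian metric `φ` on `K_X` the integral `I` of the top power of the form
`i∂∂̄φ + b` satisfies `I ≥ 0` and `‖X‖ ≤ C_n I`, `C_n = (2n - 2 + √(2n))^(2n) 2^n`. In particular
`I > 0` if the simplicial volume `‖X‖` is not zero.

2. Let `X` be a compact connected complex manifold of dimension `n ≥ 1` with a Kähler metric `w` and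
a Hermitian metric `h` of nonpositive holomorphic sectional curvature. Suppose that
`c₁(K_X)^n > 0`, or that the curvature of `h` is negative in all nonzero directions at one point, or
that `h` has no flat line, or that `X` is Brody hyperbolic, or that `n ≥ 2` and `‖X‖ ≠ 0`. Then
`K_X + [b]` is positive for every closed real `(1,1)`-form `b` whose class is nef.

3. Let `X` be a toric bundle over an abelian variety, `(X, B)` a klt pair with `K_X + B`
pseudo-effective and `M` a nef line bundle such that `K_X + B + M` is nef. Then `K_X + B + M` is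
numerically equivalent to a semiample divisor. -/
theorem result :
    (∀ n : ℕ, 2 ≤ n → ∀ (X : Type) [TopologicalSpace X] [T2Space X] [CompactSpace X]
      [ConnectedSpace X] [ChartedSpace (Cm n) X] [IsManifold 𝓘(ℂ, Cm n) ω X]
      (w b : Chart n X → Cm n → Matrix (Fin n) (Fin n) ℂ), IsKahler w → IsClosed11 b →
      NefForm w b → NefAdjoint w b →
      ∀ φ : Chart n X → Cm n → ℝ, IsCanonicalMetric φ → ∃ I : ℝ, 0 ≤ I ∧
        IsIntegral (fun e z => (cHess (φ e) z + b e z).det.re) I ∧
        sv (realAtlas n X) ≤ ENNReal.ofReal ((2 * n - 2 + √(2 * n)) ^ (2 * n) * 2 ^ n * I) ∧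
        (sv (realAtlas n X) ≠ 0 → 0 < I)) ∧
    (∀ n : ℕ, 1 ≤ n → ∀ (X : Type) [TopologicalSpace X] [T2Space X] [CompactSpace X]
      [ConnectedSpace X] [ChartedSpace (Cm n) X] [IsManifold 𝓘(ℂ, Cm n) ω X]
      (w h : Chart n X → Cm n → Matrix (Fin n) (Fin n) ℂ),
      IsKahler w → IsHermitian h → Vale.Agent.P272.K.NonposHSC h →
      ((∃ φ : Chart n X → Cm n → ℝ, IsCanonicalMetric φ ∧
          ∃ I : ℝ, 0 < I ∧ IsIntegral (fun e z => (cHess (φ e) z).det.re) I) ∨
        QuasiNegHSC h ∨ (∀ f : ℂ → X, ¬ IsFlatLine h f) ∨ BrodyHyperbolic n X ∨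
        (2 ≤ n ∧ sv (realAtlas n X) ≠ 0)) →
      ∀ b : Chart n X → Cm n → Matrix (Fin n) (Fin n) ℂ, IsClosed11 b → NefForm w b →
        ∃ φ : Chart n X → Cm n → ℝ, IsCanonicalMetric φ ∧
          ∀ e x, At e x → (cHess (φ e) (e x) + b e (e x)).PosDef) ∧
    (∀ {g n s : ℕ} (X : ToricBundle g n s) (B : X.Boundary) (M : X.LineBundle), B.IsKlt →
      IsPseudoEffective B.logCanonical → IsNef M → IsNef (B.logCanonical * M ^ B.m) →
      IsNumSemiample (B.logCanonical * M ^ B.m)) :=
  ⟨fun _ hn X _ _ _ _ _ _ w b hw hb h1 h2 φ hφ => Vale.Agent.P223.H959.adjoint_bound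
      Vale.Agent.P223.H959.blocks (Vale.Agent.P223.H959.specTot_of Vale.Agent.P223.H209.specLeb)
      hn hw hb h1 h2 hφ,
    fun _ hn X _ _ _ _ _ _ w h hw hh hneg hcase => ((Vale.Agent.P223.H959.hsc_adjoint
      Vale.Agent.P223.H959.blocks (Vale.Agent.P223.H959.specTot_of Vale.Agent.P223.H209.specLeb)
      hn X w h hw hh hneg).2 hcase).2,
    fun X B M hB hK hM hD => Vale.Agent.Results.P270.ToricBundle.result X B M hB hK hM hD⟩

end Vale.Agent.Results.P270.GeneralisedAbundance
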