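import Vale.Agent.P270.Torus.Theory

/-! P270, Question 1 (the generalised abundance conjecture) for all klt pairs on toric bundles
over abelian varieties. -/

namespace Vale.Agent.Results.P270.ToricBundle

open Vale.Agent.P270 Vale.Agent.P270.ToricBundle

/-- Let `X` be a toric bundle over an abelian variety, `(X, B)` a klt pair with `K_X + B`
pseudo-effective and `M` a nef line bundle such that `K_X + B + M` is nef. Then `K_X + B + M` is
numerically equivalent to a semiample divisor. -/
theorem result {g n s : ℕ} (X : ToricBundle g n s) (B : X.Boundary) (M : X.LineBundle)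
    (hB : B.IsKlt) (hK : IsPseudoEffective B.logCanonical) (hM : IsNef M)
    (hD : IsNef (B.logCanonical * M ^ B.m)) :
    IsNumSemiample (B.logCanonical * M ^ B.m) :=
  Vale.Agent.P270.ToricBundle.main (torusTheory X.T) B M hB hK hM hD

end Vale.Agent.Results.P270.ToricBundle
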